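import Crest.Agent.R165.D6.En
import Crest.Agent.R165.D6.Bg
import Crest.Agent.R165.D6.Flow

/-! # R165 block D6 (owner helper58): bounds on the flow of a general geometry, comparison of geometries, final formula.
The public statements (same names and types) live in the sub-files: `Geo` (`Geom.Typ`), `Agree` (`agree_*`), `Q` (`q_form`), `En` (`en_form`),
`Flow` (`flow_bound`), `Fin` (`bg_local`, `final_formula`), `Bg` (`bg_energy`). route.md §D6. -/
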